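import Mathlib

/-!
Real arithmetic for the Thorp shuffle bound with a linear number of tracked cards.
-/

namespace Vale.Agent.Lib.P162.H58

/-- If 0 ≤ k ≤ n ≤ 2 ^ L, L ≥ 2, ε ≤ 1 and ε r ≥ 24 L, then
(k / 2) sqrt (n (1 - ε / 8) ^ r) ≤ 1 / 4. -/
theorem cv_quarter (n k ε : ℝ) (L r : ℕ) (hk0 : 0 ≤ k) (hkn : k ≤ n) (hnL : n ≤ 2 ^ L)
    (hL : 2 ≤ L) (hε1 : ε ≤ 1) (hr : 24 * (L : ℝ) ≤ ε * (r : ℝ)) :
    k / 2 * Real.sqrt (n * (1 - ε / 8) ^ r) ≤ 1 / 4 := by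
  have hn0 : 0 ≤ n := le_trans hk0 hkn
  have hbase0 : 0 ≤ 1 - ε / 8 := by linarith
  have ha0 : 0 ≤ (1 - ε / 8) ^ r := pow_nonneg hbase0 r
  -- (1 - ε/8)^r ≤ exp (-3 L)
  have h1 : 1 - ε / 8 ≤ Real.exp (-(ε / 8)) := by
    have := Real.add_one_le_exp (-(ε / 8))
    linarith
  have h2 : (1 - ε / 8) ^ r ≤ Real.exp (-(3 * (L : ℝ))) := by
    calc (1 - ε / 8) ^ r ≤ (Real.exp (-(ε / 8))) ^ r := pow_le_pow_left₀ hbase0 h1 r
      _ = Real.exp ((r : ℝ) * (-(ε / 8))) := by rw [← Real.exp_nat_mul]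
      _ ≤ Real.exp (-(3 * (L : ℝ))) := by
          apply Real.exp_le_exp.mpr
          nlinarith
  -- 8 * exp (-3) ≤ 2 / 5
  have he1 : (2.7182818283 : ℝ) < Real.exp 1 := Real.exp_one_gt_d9
  have he3 : (20 : ℝ) ≤ Real.exp 3 := by
    have e : Real.exp 3 = Real.exp 1 ^ 3 := by
      rw [← Real.exp_nat_mul]
      norm_num
    rw [e]
    have h27 : (2.718 : ℝ) ≤ Real.exp 1 := by linarith
    calc (20 : ℝ) ≤ 2.718 ^ 3 := by norm_num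
      _ ≤ Real.exp 1 ^ 3 := pow_le_pow_left₀ (by norm_num) h27 3
  have hen : Real.exp (-3) ≤ 1 / 20 := by
    rw [Real.exp_neg]
    rw [inv_le_comm₀ (Real.exp_pos 3) (by norm_num)]
    norm_num
    exact he3
  have h3 : Real.exp (-(3 * (L : ℝ))) = Real.exp (-3) ^ L := by
    rw [← Real.exp_nat_mul]
    congr 1
    ring
  have h4 : (8 : ℝ) ^ L * Real.exp (-3) ^ L ≤ (2 / 5) ^ L := by
    rw [← mul_pow]
    apply pow_le_pow_left₀ (by positivity)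
    linarith
  have h5 : ((2 : ℝ) / 5) ^ L ≤ (2 / 5) ^ 2 :=
    pow_le_pow_of_le_one (by norm_num) (by norm_num) hL
  -- n^3 ≤ 8^L
  have hn3 : n ^ 3 ≤ 8 ^ L := by
    calc n ^ 3 ≤ (2 ^ L) ^ 3 := pow_le_pow_left₀ hn0 hnL 3
      _ = 8 ^ L := by
          rw [← pow_mul, mul_comm, pow_mul]
          norm_num
  -- main
  have hmain : (k * Real.sqrt (n * (1 - ε / 8) ^ r)) ^ 2 ≤ (1 / 2) ^ 2 := by
    rw [mul_pow, Real.sq_sqrt (mul_nonneg hn0 ha0)]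
    have hk2 : k ^ 2 ≤ n ^ 2 := pow_le_pow_left₀ hk0 hkn 2
    calc k ^ 2 * (n * (1 - ε / 8) ^ r) ≤ n ^ 2 * (n * (1 - ε / 8) ^ r) :=
          mul_le_mul_of_nonneg_right hk2 (mul_nonneg hn0 ha0)
      _ = n ^ 3 * (1 - ε / 8) ^ r := by ring
      _ ≤ 8 ^ L * Real.exp (-3) ^ L := by
          rw [← h3]
          exact mul_le_mul hn3 h2 ha0 (by positivity)
      _ ≤ (2 / 5) ^ 2 := le_trans h4 h5
      _ ≤ (1 / 2) ^ 2 := by norm_num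
  have hnn : 0 ≤ k * Real.sqrt (n * (1 - ε / 8) ^ r) := mul_nonneg hk0 (Real.sqrt_nonneg _)
  have := abs_le_of_sq_le_sq' hmain (by norm_num)
  linarith [this.2]

end Vale.Agent.Lib.P162.H58
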