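import Mathlib
import Vale.Agent.Lib.P162.Defs
import Vale.Agent.Lib.P162.RDefs
import Vale.Agent.Lib.P162.CVDefs
import Vale.Agent.Lib.P162.helper95.KmatBasic
import Vale.Agent.Lib.P162.helper36.MoveInj
import Vale.Agent.Lib.P162.helper93.Gap
import Vale.Agent.Lib.P162.helper52.KilledLower
import Vale.Agent.Lib.P162.helper63.PartnerProb

/-!
Thorp shuffle: the pair of walkers inside the chain of j + 2 cards, killed with probability one
half at every partner time, is still in a partner state at time 7 L with probability about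
1 / (2 n).
-/

namespace Vale.Agent.Lib.P162.H58

open Finset BigOperators
open Vale.Agent.Lib.P162.H52CV (killed_lower)
open Vale.Agent.Lib.P162.H63CV (pp_gap pp_upper pp_mix)

theorem half_ne_zero' (h : ℕ) [NeZero h] : (h : ZMod (2 * h)) ≠ 0 := by
  intro h0
  rw [ZMod.natCast_eq_zero_iff] at h0
  have hpos : 0 < h := NeZero.pos h
  have := Nat.le_of_dvd hpos h0
  omega

theorem partner_ne (h : ℕ) [NeZero h] {j : ℕ} (a : Fin (j + 2) → ZMod (2 * h))
    (ha : a 1 = a 0 + (h : ZMod (2 * h))) : a 0 ≠ a 1 := by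
  intro h01
  rw [← h01] at ha
  have : (h : ZMod (2 * h)) = 0 := by
    have h2 : a 0 + (h : ZMod (2 * h)) = a 0 + 0 := by rw [add_zero]; exact ha.symm
    exact add_left_cancel h2
  exact half_ne_zero' h this

theorem step_distinct (h j : ℕ) [NeZero h] (a b : Fin (j + 2) → ZMod (2 * h)) (ha : a 0 ≠ a 1)
    (hne : Kmat h (j + 2) a b ≠ 0) : b 0 ≠ b 1 := by
  obtain ⟨c, hc⟩ := Vale.Agent.Lib.P162.H93.H93_step_witness h (j + 2) a b hne
  intro hb
  apply ha
  apply Vale.Agent.Lib.P162.H36.move_injective h c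
  rw [hc 0, hc 1]
  exact hb

theorem partner_reach (h j : ℕ) [NeZero h] (u : Fin (j + 2) → ZMod (2 * h)) (hu : u 0 ≠ u 1) :
    1 / ((2 * h : ℝ) - 1) - 2592 * (Nat.clog 2 (2 * h) : ℝ) ^ 2 / (2 * h : ℝ) ^ 2
        - (1 / ((2 * h : ℝ) - 1) + 2592 * (Nat.clog 2 (2 * h) : ℝ) ^ 2 / (2 * h : ℝ) ^ 2) / 2
        - ((7 * Nat.clog 2 (2 * h) : ℕ) : ℝ) * (1 / 2 ^ Nat.log 2 h) ^ 2 / 2
      ≤ ∑ b ∈ univ.filter (fun y : Fin (j + 2) → ZMod (2 * h) =>
            y 1 = y 0 + (h : ZMod (2 * h))),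
          ((Matrix.of fun (a b : Fin (j + 2) → ZMod (2 * h)) =>
            (if a 1 = a 0 + (h : ZMod (2 * h)) then (1 / 2 : ℝ) else 1)
              * Kmat h (j + 2) a b) ^ (7 * Nat.clog 2 (2 * h))) u b := by
  classical
  obtain ⟨P, hP⟩ : ∃ P : Finset (Fin (j + 2) → ZMod (2 * h)),
      P = univ.filter (fun y : Fin (j + 2) → ZMod (2 * h) => y 1 = y 0 + (h : ZMod (2 * h))) :=
    ⟨_, rfl⟩
  have hmem : ∀ a : Fin (j + 2) → ZMod (2 * h), a ∈ P ↔ a 1 = a 0 + (h : ZMod (2 * h)) := by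
    intro a
    rw [hP, Finset.mem_filter]
    exact and_iff_right (Finset.mem_univ a)
  have hA : (Matrix.of fun (a b : Fin (j + 2) → ZMod (2 * h)) =>
      (if a 1 = a 0 + (h : ZMod (2 * h)) then (1 / 2 : ℝ) else 1) * Kmat h (j + 2) a b)
      = (Matrix.of fun (a b : Fin (j + 2) → ZMod (2 * h)) =>
        (if a ∈ P then (1 / 2 : ℝ) else 1) * Kmat h (j + 2) a b) := by
    ext a b
    rw [Matrix.of_apply, Matrix.of_apply]
    by_cases hab : a 1 = a 0 + (h : ZMod (2 * h))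
    · rw [if_pos hab, if_pos ((hmem a).mpr hab)]
    · rw [if_neg hab, if_neg (fun hh => hab ((hmem a).mp hh))]
  rw [hA, ← hP]
  have hpos : 0 < h := NeZero.pos h
  have hlog : 2 ^ Nat.log 2 h ≤ h := Nat.pow_log_le_self 2 (by omega)
  have hL : Nat.log 2 h ≤ Nat.clog 2 (2 * h) := by
    have h1 : 2 * h ≤ 2 ^ Nat.clog 2 (2 * h) := Nat.le_pow_clog (by norm_num) (2 * h)
    have h2 : 2 ^ Nat.log 2 h < 2 ^ Nat.clog 2 (2 * h) := by omega
    exact le_of_lt ((Nat.pow_lt_pow_iff_right (by norm_num)).mp h2)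
  have hn1 : (0 : ℝ) < (2 * h : ℝ) - 1 := by
    have : (1 : ℝ) ≤ h := by exact_mod_cast hpos
    linarith
  refine killed_lower (Kmat h (j + 2))
    (fun a b => Vale.Agent.Lib.P162.H95.stepProb_nonneg h (j + 2) a b)
    (fun a => Vale.Agent.Lib.P162.H95.stepProb_sum h (j + 2) a)
    P (fun a => a 0 ≠ a 1) (fun a b ha hab => step_distinct h j a b ha hab)
    (fun a ha => partner_ne h a ((hmem a).mp ha))
    (Nat.log 2 h) (6 * Nat.clog 2 (2 * h)) (7 * Nat.clog 2 (2 * h))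
    (1 / ((2 * h : ℝ) - 1) + 2592 * (Nat.clog 2 (2 * h) : ℝ) ^ 2 / (2 * h : ℝ) ^ 2)
    (1 / 2 ^ Nat.log 2 h)
    (1 / ((2 * h : ℝ) - 1) - 2592 * (Nat.clog 2 (2 * h) : ℝ) ^ 2 / (2 * h : ℝ) ^ 2)
    (by positivity) (by positivity) ?_ ?_ ?_ (by omega) u hu ?_
  · intro a ha s hs1 hs
    rw [hP]
    exact pp_gap h j a ((hmem a).mp ha) s hs1
      (le_trans (Nat.pow_le_pow_right (by norm_num) hs) hlog)
  · intro a ha s hs
    rw [hP]
    exact pp_upper h j a ha (Nat.log 2 h) s hlog hs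
  · intro a ha s hs
    rw [hP]
    have h1 := pp_mix h j a (partner_ne h a ((hmem a).mp ha)) s hs
    have h2 := (abs_le.mp h1).2
    linarith
  · rw [hP]
    have h1 := pp_mix h j u hu (7 * Nat.clog 2 (2 * h)) (by omega)
    have h2 := (abs_le.mp h1).1
    linarith

end Vale.Agent.Lib.P162.H58
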