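import Mathlib
import Vale.Agent.Lib.P162.Defs
import Vale.Agent.Lib.P162.Law
import Vale.Agent.Lib.P162.RDefs
import Vale.Agent.Lib.P162.CVDefs
import Vale.Agent.Lib.P162.helper99.QStoch
import Vale.Agent.Lib.P162.helper45.QpowSum
import Vale.Agent.Lib.P162.helper71.QpowSupport
import Vale.Agent.Lib.P162.helper16.CVPsd
import Vale.Agent.Lib.P162.helper43.DefectSq
import Vale.Agent.Lib.P162.helper62.DcolContract
import Vale.Agent.Lib.P162.helper5.CVMerge
import Vale.Agent.Lib.P162.helper72.Minor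
import Vale.Agent.Lib.P162.helper34.CvAll
import Vale.Agent.Lib.P162.helper58.CVReach

/-!
Thorp shuffle of 2 h cards: assembly of the bound for a linear number of tracked cards.
-/

namespace Vale.Agent.Lib.P162.H58

open Finset BigOperators

/-- the squared defect of the new card is at most the number of holes times the collision
probability of the two walkers, minus one -/
theorem defect_sq_le (h j : ℕ) [NeZero h] (t : ℕ) (p : ZMod (2 * h)) (w : Fin j → ZMod (2 * h))
    (hz : Function.Injective (Fin.cons p w : Fin (j + 1) → ZMod (2 * h))) :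
    (defect h j t (Fin.cons p w)) ^ 2
      ≤ ((2 * h : ℝ) - j) * Dcol h j t (Fin.cons p (Fin.cons p w)) - 1 :=
  Vale.Agent.Lib.P162.H43CV.defect_sq_le_of h j
    (Vale.Agent.Lib.P162.H16CV.diag_cs h j)
    (Vale.Agent.Lib.P162.H99CV.Qpow_nonneg h j) t p w hz

/-- a minorization of the meeting probability contracts the collision probability -/
theorem Dcol_contract (h j : ℕ) [NeZero h] (B : ℕ) (κ : ℝ) (hκ : 0 ≤ κ)
    (hκm : κ * ((2 * h : ℝ) - j) ≤ 1)
    (hmin : ∀ (v : Fin j → ZMod (2 * h)) (q q' : ZMod (2 * h)), Function.Injective v →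
      (∀ i, q ≠ v i) → (∀ i, q' ≠ v i) → κ ≤ Dcol h j B (Fin.cons q (Fin.cons q' v)))
    (p : ZMod (2 * h)) (w : Fin j → ZMod (2 * h))
    (hz : Function.Injective (Fin.cons p w : Fin (j + 1) → ZMod (2 * h))) (t : ℕ) :
    Dcol h j (t + B) (Fin.cons p (Fin.cons p w))
      ≤ κ + (1 - κ * ((2 * h : ℝ) - j)) * Dcol h j t (Fin.cons p (Fin.cons p w)) :=
  Vale.Agent.Lib.P162.H62CV.Dcol_contract_of h j
    (Vale.Agent.Lib.P162.H99CV.Qpow_nonneg h j)
    (Vale.Agent.Lib.P162.H99CV.Qpow_row_sum h j)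
    (Vale.Agent.Lib.P162.H45CV.Qpow_sum_two h j)
    (Vale.Agent.Lib.P162.H45CV.Qpow_sum_one h j)
    (Vale.Agent.Lib.P162.H71CV.Qpow_support h j)
    (Vale.Agent.Lib.P162.H16CV.Qpow_two_le_of h j (Vale.Agent.Lib.P162.H71CV.Qpow_swap h j))
    B κ hκ hκm hmin p w hz t

/-- Doeblin minorization: from any two holes the two walkers meet at time 7 L + 1 with
probability at least 1 / (8 n). -/
theorem minor (h j : ℕ) [NeZero h] (hn : 15776 * Nat.clog 2 (2 * h) ^ 2 ≤ 2 * h)
    (v : Fin j → ZMod (2 * h)) (q q' : ZMod (2 * h)) (hv : Function.Injective v)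
    (hq : ∀ i, q ≠ v i) (hq' : ∀ i, q' ≠ v i) :
    1 / (16 * (h : ℝ))
      ≤ Dcol h j (7 * Nat.clog 2 (2 * h) + 1) (Fin.cons q (Fin.cons q' v)) :=
  Vale.Agent.Lib.P162.H72CV.minor_of h j
    (Vale.Agent.Lib.P162.H99CV.Qpow_nonneg h j)
    (defect_sq_le h j)
    (Vale.Agent.Lib.P162.H5CV.Q_ge_K h j)
    (Vale.Agent.Lib.P162.H5CV.Q_merge h j)
    (partner_reach h j) hn v q q' hv hq hq'

/-- the squared defect of the new card after r blocks of 7 L + 1 shuffles -/
theorem defect_cv (h j : ℕ) [NeZero h] (hn : 15776 * Nat.clog 2 (2 * h) ^ 2 ≤ 2 * h)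
    (z : Fin (j + 1) → ZMod (2 * h)) (hz : Function.Injective z) (r : ℕ) :
    (defect h j ((7 * Nat.clog 2 (2 * h) + 1) * r) z) ^ 2
      ≤ (2 * h : ℝ) * (1 - ((2 * h : ℝ) - j) / (16 * (h : ℝ))) ^ r :=
  Vale.Agent.Lib.P162.H34CV.defect_cv_of h j
    (Vale.Agent.Lib.P162.H99CV.Qpow_nonneg h j)
    (defect_sq_le h j)
    (fun B κ hκ hκm hmin p w hz t => Dcol_contract h j B κ hκ hκm hmin p w hz t)
    (minor h j hn) z hz r

/-- For every even deck size 2 h with 15776 L ^ 2 ≤ 2 h, L the ceiling of log₂ (2 h), every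
real ε in (0, 1], every k ≤ (1 - ε) 2 h, every r and every T ≥ (7 L + 1) r: after T Thorp
shuffles the joint law of the positions of k cards that start in distinct positions is within
total variation distance (k / 2) sqrt (2 h (1 - ε / 8) ^ r) of the uniform law on k-tuples of
distinct positions. -/
theorem cv_all (h k r : ℕ) [NeZero h] (ε : ℝ) (hε : 0 < ε) (hε1 : ε ≤ 1)
    (hn : 15776 * Nat.clog 2 (2 * h) ^ 2 ≤ 2 * h)
    (hk : (k : ℝ) ≤ (1 - ε) * (2 * h : ℝ))
    (x : Fin k → ZMod (2 * h)) (hx : Function.Injective x) (T : ℕ)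
    (hT : (7 * Nat.clog 2 (2 * h) + 1) * r ≤ T) :
    (1 / 2 : ℝ) * ∑ y : Fin k → ZMod (2 * h), |trackedLaw h k T x y - unifInj h k y|
      ≤ (k : ℝ) / 2 * Real.sqrt ((2 * h : ℝ) * (1 - ε / 8) ^ r) :=
  Vale.Agent.Lib.P162.H34CV.cv_all_of h
    (fun j z hz r => defect_cv h j hn z hz r) k r ε hε hε1 hk x hx T hT

end Vale.Agent.Lib.P162.H58
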